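import Vale.Agent.P095K.GStmt

/-! Characters of the fixed point algebra `F_μ(A)^α` of Kirchberg's central sequence algebra
`F_μ(A) = (A_μ ∩ A') / Ann(A)`, described by representing sequences. (helper985) -/

open Filter Topology

namespace Vale.Agent.P095.KR

universe u w

/-- The sequence `x` represents an element of `F_μ(A)^α`, the fixed point algebra of the action
induced by `α` on Kirchberg's central sequence algebra `F_μ(A) = (A_μ ∩ A') / Ann(A)`: it is
bounded, `x_n a - a x_n → 0` and `(α_g(x_n) - x_n) a → 0` along `μ` for all `a` and `g`. -/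
structure IsCentralFixed {A : Type u} [NonUnitalCStarAlgebra A] {G : Type w} [Group G]
    (α : G →* (A ≃⋆ₐ[ℂ] A)) (μ : Filter ℕ) (x : ℕ → A) : Prop where
  bdd : ∃ C : ℝ, ∀ n, ‖x n‖ ≤ C
  comm : ∀ a, Tendsto (fun n => ‖x n * a - a * x n‖) μ (𝓝 0)
  fixed : ∀ g a, Tendsto (fun n => ‖(α g (x n) - x n) * a‖) μ (𝓝 0)

/-- `χ` is (the composition with the quotient map of) a character of `F_μ(A)^α`: on the sequences
above it is additive, homogeneous, multiplicative and star-preserving, it vanishes on those with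
`x_n a → 0` along `μ` for all `a`, and it is not zero. -/
structure IsCharacter {A : Type u} [NonUnitalCStarAlgebra A] {G : Type w} [Group G]
    (α : G →* (A ≃⋆ₐ[ℂ] A)) (μ : Filter ℕ) (χ : (ℕ → A) → ℂ) : Prop where
  add : ∀ x y, IsCentralFixed α μ x → IsCentralFixed α μ y → χ (x + y) = χ x + χ y
  smul : ∀ (c : ℂ) x, IsCentralFixed α μ x → χ (c • x) = c * χ x
  mul : ∀ x y, IsCentralFixed α μ x → IsCentralFixed α μ y → χ (x * y) = χ x * χ y
  star : ∀ x, IsCentralFixed α μ x → χ (star x) = star (χ x)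
  ann : ∀ x, IsCentralFixed α μ x → (∀ a, Tendsto (fun n => ‖x n * a‖) μ (𝓝 0)) → χ x = 0
  ne_zero : ∃ x, IsCentralFixed α μ x ∧ χ x ≠ 0

/-- `F_μ(A)^α` has no characters. -/
def HasNoCharacters {A : Type u} [NonUnitalCStarAlgebra A] {G : Type w} [Group G]
    (α : G →* (A ≃⋆ₐ[ℂ] A)) (μ : Filter ℕ) : Prop :=
  ¬ ∃ χ : (ℕ → A) → ℂ, IsCharacter α μ χ

end Vale.Agent.P095.KR
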