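import Vale.Agent.P095.Bdl.B20
import Vale.Agent.P095.H985.Defs

/-! The fixed point algebra of the central sequence algebra of `A` along any filter, in terms of
sequences of multipliers (adapted from `B20`, where the filter is `atTop`). (helper985) -/

set_option linter.all false

open Filter Topology
open scoped MultiplierAlgebra

namespace Vale.Agent.P095.KR

universe u w

open Vale.Agent.P101 Vale.Agent.P101.SeqQuot Vale.Agent.P095.ZS Vale.Agent.P133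
open Vale.Agent.P095R hiding thm kap C0 NN kap_star thm_kap thm_continuous mem_C0 isClosed_C0 mk_mem_C0 kap_mul_mk_eq_zero tendsto_of_kap_mul_mk cstarC0 mem_NN exists_approx

variable {A : Type u} [NonUnitalCStarAlgebra A]

section main

variable {G : Type w} [Group G] (α : G →* (A ≃⋆ₐ[ℂ] A)) (μ : Filter ℕ)

/-- the action on bounded sequences of multipliers modulo null sequences -/
noncomputable def thm (g : G) : Bq 𝓜(ℂ, A) μ →⋆ₐ[ℂ] Bq 𝓜(ℂ, A) μ :=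
  bqMap μ ((multAct α g : 𝓜(ℂ, A) ≃⋆ₐ[ℂ] 𝓜(ℂ, A)) : 𝓜(ℂ, A) →⋆ₐ[ℂ] 𝓜(ℂ, A))

/-- constants -/
noncomputable def kap (a : A) : Bq 𝓜(ℂ, A) μ :=
  Bq.constHom μ (a : 𝓜(ℂ, A))

theorem kap_star (a : A) : kap μ (star a) = star (kap μ a) := by
  unfold kap
  rw [coe_star', map_star]

theorem thm_kap (g : G) (a : A) : thm α μ g (kap μ a) = kap μ (α g a) := by
  unfold thm kap
  rw [← multAct_coe]
  rfl

theorem thm_continuous (g : G) : Continuous (thm α μ g) :=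
  AddMonoidHomClass.continuous_of_bound (thm α μ g) 1
    (by simpa only [one_mul] using! NonUnitalStarAlgHom.norm_apply_le (thm α μ g))

/-- the relative commutant of the constants, fixed by the action up to annihilators -/
noncomputable def C0 : StarSubalgebra ℂ (Bq 𝓜(ℂ, A) μ) where
  carrier := {z | (∀ a : A, kap μ a * z = z * kap μ a) ∧
    ∀ (g : G) (a : A), kap μ a * (thm α μ g z - z) = 0}
  mul_mem' := by
    rintro x y ⟨hx, hx'⟩ ⟨hy, hy'⟩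
    refine ⟨fun a => ?_, fun g a => ?_⟩
    · rw [← mul_assoc, hx a, mul_assoc, hy a, mul_assoc]
    · have e : kap μ a * (thm α μ g (x * y) - x * y) =
          kap μ a * (thm α μ g x - x) * thm α μ g y + kap μ a * x * (thm α μ g y - y) := by
        rw [map_mul]; noncomm_ring
      rw [e, hx' g a, zero_mul, zero_add, hx a, mul_assoc, hy' g a, mul_zero]
  add_mem' := by
    rintro x y ⟨hx, hx'⟩ ⟨hy, hy'⟩
    refine ⟨fun a => ?_, fun g a => ?_⟩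
    · rw [mul_add, add_mul, hx a, hy a]
    · have e : kap μ a * (thm α μ g (x + y) - (x + y)) =
          kap μ a * (thm α μ g x - x) + kap μ a * (thm α μ g y - y) := by
        rw [map_add]; noncomm_ring
      rw [e, hx' g a, hy' g a, add_zero]
  algebraMap_mem' := by
    intro r
    refine ⟨fun a => (Algebra.commutes r (kap μ a)).symm, fun g a => ?_⟩
    rw [AlgHomClass.commutes (thm α μ g) r, sub_self, mul_zero]
  star_mem' := by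
    rintro x ⟨hx, hx'⟩
    refine ⟨fun a => ?_, fun g a => ?_⟩
    · have h1 := congrArg star (hx (star a))
      rw [star_mul, star_mul, kap_star, star_star] at h1
      exact h1.symm
    · have h1 : thm α μ g x * kap μ (star a) = kap μ (star a) * thm α μ g x := by
        have h2 := congrArg (thm α μ g) (hx ((α g).symm (star a)))
        rw [map_mul, map_mul, thm_kap, StarAlgEquiv.apply_symm_apply] at h2
        exact h2.symm
      have h3 : (thm α μ g x - x) * kap μ (star a) = 0 := by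
        rw [sub_mul, h1, ← hx (star a), ← mul_sub, hx' g (star a)]
      have h4 := congrArg star h3
      rw [star_mul, star_zero, kap_star, star_star, star_sub, ← map_star] at h4
      exact h4

theorem mem_C0 {z : Bq 𝓜(ℂ, A) μ} : z ∈ C0 α μ ↔
    (∀ a : A, kap μ a * z = z * kap μ a) ∧ ∀ (g : G) (a : A), kap μ a * (thm α μ g z - z) = 0 := Iff.rfl

theorem isClosed_C0 : IsClosed (C0 α μ : Set (Bq 𝓜(ℂ, A) μ)) := by
  have : (C0 α μ : Set (Bq 𝓜(ℂ, A) μ)) =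
      (⋂ a : A, {z | kap μ a * z = z * kap μ a}) ∩
        ⋂ (g : G) (a : A), {z | kap μ a * (thm α μ g z - z) = 0} := by
    ext z
    simp only [Set.mem_iInter, Set.mem_inter_iff]
    exact mem_C0 α μ
  rw [this]
  refine (isClosed_iInter fun a => isClosed_eq (by fun_prop) (by fun_prop)).inter
    (isClosed_iInter fun g => isClosed_iInter fun a => isClosed_eq ?_ continuous_const)
  exact continuous_const.mul ((thm_continuous α μ g).sub continuous_id)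

/-- classes in `C0` from sequences -/
theorem mk_mem_C0 (y : bddSeq 𝓜(ℂ, A) ℕ)
    (h1 : ∀ b : A, Tendsto (fun n => ‖(b : 𝓜(ℂ, A)) * (y : ℕ → 𝓜(ℂ, A)) n -
      (y : ℕ → 𝓜(ℂ, A)) n * (b : 𝓜(ℂ, A))‖) μ (𝓝 0))
    (h2 : ∀ (g : G) (b : A), Tendsto (fun n => ‖(b : 𝓜(ℂ, A)) *
      (multAct α g ((y : ℕ → 𝓜(ℂ, A)) n) - (y : ℕ → 𝓜(ℂ, A)) n)‖) μ (𝓝 0)) :
    Bq.mk μ y ∈ C0 α μ := by
  refine (mem_C0 α μ).2 ⟨fun a => ?_, fun g a => ?_⟩
  · exact (Bq.mk_eq_iff μ (Bq.const (a : 𝓜(ℂ, A)) * y) (y * Bq.const (a : 𝓜(ℂ, A)))).2 (h1 a)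
  · have hb : ∃ C : ℝ, ∀ k, ‖multAct α g ((y : ℕ → 𝓜(ℂ, A)) k)‖ ≤ C :=
      y.2.imp fun C hC k => (norm_multAct_le α g _).trans (hC k)
    refine (Bq.mk_eq_iff μ (Bq.const (a : 𝓜(ℂ, A)) *
      ((⟨fun k => multAct α g ((y : ℕ → 𝓜(ℂ, A)) k), hb⟩ : bddSeq 𝓜(ℂ, A) ℕ) - y)) 0).2 ?_
    refine (h2 g a).congr fun n => ?_
    show _ = ‖_ - (0 : 𝓜(ℂ, A))‖
    rw [sub_zero]
    rfl

theorem kap_mul_mk_eq_zero (y : bddSeq 𝓜(ℂ, A) ℕ) (b : A)
    (h : Tendsto (fun n => ‖(b : 𝓜(ℂ, A)) * (y : ℕ → 𝓜(ℂ, A)) n‖) μ (𝓝 0)) :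
    kap μ b * Bq.mk μ y = 0 := by
  refine (Bq.mk_eq_iff μ (Bq.const (b : 𝓜(ℂ, A)) * y) 0).2 ?_
  refine h.congr fun n => ?_
  show _ = ‖_ - (0 : 𝓜(ℂ, A))‖
  rw [sub_zero]
  rfl

theorem tendsto_of_kap_mul_mk {y : bddSeq 𝓜(ℂ, A) ℕ} {b : A}
    (h : kap μ b * Bq.mk μ y = 0) :
    Tendsto (fun n => ‖(b : 𝓜(ℂ, A)) * (y : ℕ → 𝓜(ℂ, A)) n‖) μ (𝓝 0) := by
  have h1 := (Bq.mk_eq_iff μ (Bq.const (b : 𝓜(ℂ, A)) * y) 0).1 h
  refine h1.congr fun n => ?_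
  show ‖_ - (0 : 𝓜(ℂ, A))‖ = _
  rw [sub_zero]
  rfl

/-- the relative commutant is a C*-algebra -/
noncomputable abbrev cstarC0  : CStarAlgebra (C0 α μ) :=
  StarSubalgebra.cstarAlgebra _ (h_closed := isClosed_C0 α μ)

attribute [local instance] cstarC0

/-- the annihilator of the constants -/
noncomputable def NN  : CIdeal (C0 α μ) :=
    { toSub :=
        { carrier := {x | ∀ b : A, kap μ b * (x : Bq 𝓜(ℂ, A) μ) = 0}
          add_mem' := by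
            intro x y hx hy b
            have e : ((x + y : C0 α μ) : Bq 𝓜(ℂ, A) μ) = x + y := rfl
            rw [e, mul_add, hx b, hy b, add_zero]
          zero_mem' := by
            intro b
            have e : ((0 : C0 α μ) : Bq 𝓜(ℂ, A) μ) = 0 := rfl
            rw [e, mul_zero]
          smul_mem' := by
            intro c x hx b
            have e : ((c • x : C0 α μ) : Bq 𝓜(ℂ, A) μ) = c • x := rfl
            rw [e, mul_smul_comm, hx b, smul_zero] }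
      mul_left' := by
        intro y x hx b
        have e : ((y * x : C0 α μ) : Bq 𝓜(ℂ, A) μ) = y * x := rfl
        show kap μ b * ((y * x : C0 α μ) : Bq 𝓜(ℂ, A) μ) = 0
        rw [e, ← mul_assoc, ((mem_C0 α μ).1 y.2).1 b, mul_assoc, hx b, mul_zero]
      mul_right' := by
        intro y x hx b
        have e : ((x * y : C0 α μ) : Bq 𝓜(ℂ, A) μ) = x * y := rfl
        show kap μ b * ((x * y : C0 α μ) : Bq 𝓜(ℂ, A) μ) = 0
        rw [e, ← mul_assoc, hx b, zero_mul]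
      star_mem' := by
        intro x hx b
        have e : ((star x : C0 α μ) : Bq 𝓜(ℂ, A) μ) = star (x : Bq 𝓜(ℂ, A) μ) :=
          rfl
        show kap μ b * ((star x : C0 α μ) : Bq 𝓜(ℂ, A) μ) = 0
        have h1 := hx (star b)
        rw [((mem_C0 α μ).1 x.2).1] at h1
        have h2 := congrArg star h1
        rw [star_mul, kap_star, star_star, star_zero] at h2
        rw [e]
        exact h2
      closed' := by
        have : {x : C0 α μ | ∀ b : A, kap μ b * (x : Bq 𝓜(ℂ, A) μ) = 0} =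
            ⋂ b : A, {x : C0 α μ | kap μ b * (x : Bq 𝓜(ℂ, A) μ) = 0} := by
          ext x; simp
        show IsClosed {x : C0 α μ | ∀ b : A, kap μ b * (x : Bq 𝓜(ℂ, A) μ) = 0}
        rw [this]
        exact isClosed_iInter fun b =>
          isClosed_eq (by fun_prop) continuous_const }

theorem mem_NN  (x : C0 α μ) :
    x ∈ NN α μ ↔ ∀ b : A, kap μ b * (x : Bq 𝓜(ℂ, A) μ) = 0 := Iff.rfl

theorem exists_approx [NeBot μ] {m : ℕ}
    (x : Fin 4 → Fin m → C0 α μ) (y : C0 α μ)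
    (hy : ∀ b : A, kap μ b * (y : Bq 𝓜(ℂ, A) μ) = 0)
    (hsum : (∑ i, x 0 i * (x 1 i * x 2 i - x 2 i * x 1 i) * x 3 i) + y = 1) :
    NoCharLocalM α := by
  choose X hX using fun q i => Bq.mk_surjective (B := 𝓜(ℂ, A)) μ
    ((x q i : C0 α μ) : Bq 𝓜(ℂ, A) μ)
  choose Cb hCb using fun q i => (X q i).2
  refine ⟨m, ∑ p : Fin 4 × Fin m, |Cb p.1 p.2|, fun F S ε hε => ?_⟩
  have hbound : ∀ q i n, ‖((X q i : bddSeq 𝓜(ℂ, A) ℕ) : ℕ → 𝓜(ℂ, A)) n‖ ≤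
      ∑ p : Fin 4 × Fin m, |Cb p.1 p.2| := by
    intro q i n
    refine (hCb q i n).trans ((le_abs_self _).trans ?_)
    exact Finset.single_le_sum (f := fun p : Fin 4 × Fin m => |Cb p.1 p.2|)
      (fun p _ => abs_nonneg _) (Finset.mem_univ (q, i))
  have ev1 : ∀ᶠ n in μ, ∀ q i, ∀ b ∈ F,
      ‖((X q i : bddSeq 𝓜(ℂ, A) ℕ) : ℕ → 𝓜(ℂ, A)) n * (b : 𝓜(ℂ, A)) -
        (b : 𝓜(ℂ, A)) * ((X q i : bddSeq 𝓜(ℂ, A) ℕ) : ℕ → 𝓜(ℂ, A)) n‖ ≤ ε := by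
    rw [eventually_all]
    intro q
    rw [eventually_all]
    intro i
    rw [eventually_all_finset]
    intro b _
    have h1 := ((mem_C0 α μ).1 (x q i).2).1 b
    rw [← hX q i] at h1
    have h2 := (Bq.mk_eq_iff μ (Bq.const (b : 𝓜(ℂ, A)) * X q i)
      (X q i * Bq.const (b : 𝓜(ℂ, A)))).1 h1
    filter_upwards [h2.eventually (ge_mem_nhds hε)] with n hn
    rw [norm_sub_rev]
    exact hn
  have ev2 : ∀ᶠ n in μ, ∀ q i, ∀ g ∈ S, ∀ b ∈ F,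
      ‖(b : 𝓜(ℂ, A)) * (multAct α g (((X q i : bddSeq 𝓜(ℂ, A) ℕ) : ℕ → 𝓜(ℂ, A)) n) -
        ((X q i : bddSeq 𝓜(ℂ, A) ℕ) : ℕ → 𝓜(ℂ, A)) n)‖ ≤ ε := by
    rw [eventually_all]
    intro q
    rw [eventually_all]
    intro i
    rw [eventually_all_finset]
    intro g _
    rw [eventually_all_finset]
    intro b _
    have h1 := ((mem_C0 α μ).1 (x q i).2).2 g b
    rw [← hX q i] at h1
    have hb : ∃ C : ℝ, ∀ k, ‖multAct α g (((X q i : bddSeq 𝓜(ℂ, A) ℕ) : ℕ → 𝓜(ℂ, A)) k)‖ ≤ C :=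
      (X q i).2.imp fun C hC k => (norm_multAct_le α g _).trans (hC k)
    have h2 := tendsto_of_kap_mul_mk μ
      (y := (⟨fun k => multAct α g (((X q i : bddSeq 𝓜(ℂ, A) ℕ) : ℕ → 𝓜(ℂ, A)) k), hb⟩ :
        bddSeq 𝓜(ℂ, A) ℕ) - X q i) (b := b) h1
    filter_upwards [h2.eventually (ge_mem_nhds hε)] with n hn
    exact hn
  have ev3 : ∀ᶠ n in μ, ∀ b ∈ F, ‖(b : 𝓜(ℂ, A)) *
      ((∑ i, ((X 0 i : bddSeq 𝓜(ℂ, A) ℕ) : ℕ → 𝓜(ℂ, A)) n *
        (((X 1 i : bddSeq 𝓜(ℂ, A) ℕ) : ℕ → 𝓜(ℂ, A)) n *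
          ((X 2 i : bddSeq 𝓜(ℂ, A) ℕ) : ℕ → 𝓜(ℂ, A)) n -
        ((X 2 i : bddSeq 𝓜(ℂ, A) ℕ) : ℕ → 𝓜(ℂ, A)) n *
          ((X 1 i : bddSeq 𝓜(ℂ, A) ℕ) : ℕ → 𝓜(ℂ, A)) n) *
        ((X 3 i : bddSeq 𝓜(ℂ, A) ℕ) : ℕ → 𝓜(ℂ, A)) n) - 1)‖ ≤ ε := by
    rw [eventually_all_finset]
    intro b _
    set Y : bddSeq 𝓜(ℂ, A) ℕ := (∑ i, X 0 i * (X 1 i * X 2 i - X 2 i * X 1 i) * X 3 i) - 1
      with hY
    have hmkY : Bq.mk μ Y = -(y : Bq 𝓜(ℂ, A) μ) := by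
      have h1 : ((∑ i, x 0 i * (x 1 i * x 2 i - x 2 i * x 1 i) * x 3 i : C0 α μ) :
          Bq 𝓜(ℂ, A) μ) =
          ∑ i, (x 0 i : Bq 𝓜(ℂ, A) μ) * ((x 1 i : Bq 𝓜(ℂ, A) μ) *
            (x 2 i : Bq 𝓜(ℂ, A) μ) - (x 2 i : Bq 𝓜(ℂ, A) μ) *
            (x 1 i : Bq 𝓜(ℂ, A) μ)) * (x 3 i : Bq 𝓜(ℂ, A) μ) :=
        map_sum (C0 α μ).subtype _ _
      have h2 : Bq.mk μ Y = (∑ i, Bq.mk μ (X 0 i * (X 1 i * X 2 i - X 2 i * X 1 i) *
          X 3 i)) - 1 := by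
        rw [hY, Bq.mk_sub, Bq.mk_one]
        congr 1
        exact map_sum (nullConG μ (bddSeq 𝓜(ℂ, A) ℕ)
          (isSeqAlg_bddSeq 𝓜(ℂ, A) μ)).mk' _ _
      have h3 : ∀ i, Bq.mk μ (X 0 i * (X 1 i * X 2 i - X 2 i * X 1 i) * X 3 i) =
          (x 0 i : Bq 𝓜(ℂ, A) μ) * ((x 1 i : Bq 𝓜(ℂ, A) μ) *
            (x 2 i : Bq 𝓜(ℂ, A) μ) - (x 2 i : Bq 𝓜(ℂ, A) μ) *
            (x 1 i : Bq 𝓜(ℂ, A) μ)) *
              (x 3 i : Bq 𝓜(ℂ, A) μ) := by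
        intro i
        rw [← hX 0 i, ← hX 1 i, ← hX 2 i, ← hX 3 i]
        rfl
      have h4 : ((∑ i, x 0 i * (x 1 i * x 2 i - x 2 i * x 1 i) * x 3 i : C0 α μ) :
          Bq 𝓜(ℂ, A) μ) + (y : Bq 𝓜(ℂ, A) μ) = 1 :=
        congrArg Subtype.val hsum
      rw [h2]
      simp only [h3]
      rw [← h1, ← h4]
      abel
    have hk : kap μ b * Bq.mk μ Y = 0 := by
      rw [hmkY, mul_neg, hy b, neg_zero]
    have h2 := tendsto_of_kap_mul_mk μ hk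
    filter_upwards [h2.eventually (ge_mem_nhds hε)] with n hn
    have hYn : (Y : ℕ → 𝓜(ℂ, A)) n = (∑ i, ((X 0 i : bddSeq 𝓜(ℂ, A) ℕ) : ℕ → 𝓜(ℂ, A)) n *
        (((X 1 i : bddSeq 𝓜(ℂ, A) ℕ) : ℕ → 𝓜(ℂ, A)) n *
          ((X 2 i : bddSeq 𝓜(ℂ, A) ℕ) : ℕ → 𝓜(ℂ, A)) n -
        ((X 2 i : bddSeq 𝓜(ℂ, A) ℕ) : ℕ → 𝓜(ℂ, A)) n *
          ((X 1 i : bddSeq 𝓜(ℂ, A) ℕ) : ℕ → 𝓜(ℂ, A)) n) *
        ((X 3 i : bddSeq 𝓜(ℂ, A) ℕ) : ℕ → 𝓜(ℂ, A)) n) - 1 := by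
      rw [hY]
      change ((∑ i, X 0 i * (X 1 i * X 2 i - X 2 i * X 1 i) * X 3 i : bddSeq 𝓜(ℂ, A) ℕ) :
        ℕ → 𝓜(ℂ, A)) n - 1 = _
      congr 1
      simp only [AddSubmonoidClass.coe_finsetSum, Finset.sum_apply]
      rfl
    rw [← hYn]
    exact hn
  obtain ⟨n, ⟨hn1, hn2⟩, hn3⟩ := ((ev1.and ev2).and ev3).exists
  exact ⟨fun q i => ((X q i : bddSeq 𝓜(ℂ, A) ℕ) : ℕ → 𝓜(ℂ, A)) n,
    fun q i => hbound q i n, hn1, hn2, hn3⟩

end main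

end Vale.Agent.P095.KR
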