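import Vale.Agent.P095.H985.Loc

/-! Absence of characters gives the local condition. (helper985) -/

open Filter Topology
open scoped MultiplierAlgebra

namespace Vale.Agent.P095.KR

open Vale.Agent.P101 Vale.Agent.P101.SeqQuot Vale.Agent.P133
open Vale.Agent.P095R (NoCharLocalN tendsto_dense tendsto_of_le_inv noCharLocalN_of_mult coe_mul'
  coe_sub' coe_star' norm_coe_mult multAct multAct_coe)

universe u w

variable {A : Type u} [NonUnitalCStarAlgebra A] {G : Type w} [Group G]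
  {α : G →* (A ≃⋆ₐ[ℂ] A)} {μ : Filter ℕ}

attribute [local instance] cstarC0

section sah

variable {C : Type*} [Semiring C] [Algebra ℂ C] [Star C] (χ : C →⋆ₐ[ℂ] ℂ)

theorem sah_add (x y : C) : χ (x + y) = χ x + χ y := map_add χ x y

theorem sah_mul (x y : C) : χ (x * y) = χ x * χ y := map_mul χ x y

theorem sah_smul (c : ℂ) (x : C) : χ (c • x) = c * χ x := by rw [map_smul, smul_eq_mul]

theorem sah_star (x : C) : χ (star x) = star (χ x) := map_star χ x

theorem sah_of_sub {C : Type*} [Ring C] [Algebra ℂ C] [Star C] (χ : C →⋆ₐ[ℂ] ℂ) (x : C)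
    (h : χ (x - 1) = 0) : χ x = 1 := by
  rw [map_sub, map_one, sub_eq_zero] at h
  exact h

end sah

/-- the sequence in the multiplier algebra -/
noncomputable def up (x : ℕ → A) (hx : ∃ C : ℝ, ∀ n, ‖x n‖ ≤ C) : bddSeq 𝓜(ℂ, A) ℕ :=
  ⟨fun n => ((x n : A) : 𝓜(ℂ, A)), hx.imp fun C hC n => by
    rw [norm_coe_mult]
    exact hC n⟩

theorem up_mem (x : ℕ → A) (hx : IsCentralFixed α μ x) : Bq.mk μ (up x hx.bdd) ∈ C0 α μ := by
  refine mk_mem_C0 α μ _ (fun b => ?_) (fun g b => ?_)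
  · refine (hx.comm b).congr fun n => ?_
    show _ = ‖(b : 𝓜(ℂ, A)) * ((x n : A) : 𝓜(ℂ, A)) - ((x n : A) : 𝓜(ℂ, A)) * (b : 𝓜(ℂ, A))‖
    rw [← coe_mul', ← coe_mul', ← coe_sub', norm_coe_mult, norm_sub_rev]
  · refine (hx.fixed_left g b).congr fun n => ?_
    show _ = ‖(b : 𝓜(ℂ, A)) * (multAct α g ((x n : A) : 𝓜(ℂ, A)) - ((x n : A) : 𝓜(ℂ, A)))‖
    rw [multAct_coe, ← coe_sub', ← coe_mul', norm_coe_mult]

/-- the class of a sequence -/
noncomputable def cls (x : ℕ → A) (hx : IsCentralFixed α μ x) : C0 α μ :=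
  ⟨Bq.mk μ (up x hx.bdd), up_mem x hx⟩

theorem cls_add {x y : ℕ → A} (hx : IsCentralFixed α μ x) (hy : IsCentralFixed α μ y) :
    cls (x + y) (hx.add hy) = cls x hx + cls y hy := by
  refine Subtype.ext ?_
  show Bq.mk μ _ = Bq.mk μ (up x hx.bdd + up y hy.bdd)
  congr 1
  refine Subtype.ext (funext fun n => ?_)
  exact map_add (DoubleCentralizer.coeHom (𝕜 := ℂ) (A := A)) (x n) (y n)

theorem cls_smul (c : ℂ) {x : ℕ → A} (hx : IsCentralFixed α μ x) :
    cls (c • x) (hx.smul c) = c • cls x hx := by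
  refine Subtype.ext ?_
  show Bq.mk μ _ = Bq.mk μ (c • up x hx.bdd)
  congr 1
  refine Subtype.ext (funext fun n => ?_)
  exact map_smul (DoubleCentralizer.coeHom (𝕜 := ℂ) (A := A)) c (x n)

theorem cls_mul {x y : ℕ → A} (hx : IsCentralFixed α μ x) (hy : IsCentralFixed α μ y) :
    cls (x * y) (hx.mul hy) = cls x hx * cls y hy := by
  refine Subtype.ext ?_
  show Bq.mk μ _ = Bq.mk μ (up x hx.bdd * up y hy.bdd)
  congr 1
  refine Subtype.ext (funext fun n => ?_)
  exact coe_mul' _ _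

theorem cls_star {x : ℕ → A} (hx : IsCentralFixed α μ x) :
    cls (star x) hx.star = star (cls x hx) := by
  refine Subtype.ext ?_
  show Bq.mk μ _ = Bq.mk μ (star (up x hx.bdd))
  congr 1
  refine Subtype.ext (funext fun n => ?_)
  exact coe_star' _

theorem cls_mem_NN {x : ℕ → A} (hx : IsCentralFixed α μ x)
    (h : ∀ a, Tendsto (fun n => ‖x n * a‖) μ (𝓝 0)) : cls x hx ∈ NN α μ := by
  refine (mem_NN α μ _).2 fun b => kap_mul_mk_eq_zero μ _ b ?_
  have h1 := (hx.comm b).add (h b)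
  rw [add_zero] at h1
  refine squeeze_zero (fun n => norm_nonneg _) (fun n => ?_) h1
  show ‖(b : 𝓜(ℂ, A)) * ((x n : A) : 𝓜(ℂ, A))‖ ≤ _
  rw [← coe_mul', norm_coe_mult]
  have e : x n * b - (x n * b - b * x n) = b * x n := by abel
  have h2 := norm_sub_le (x n * b) (x n * b - b * x n)
  rw [e] at h2
  linarith

open Classical in
/-- a character of the C*-algebra `C0 α μ`, on sequences -/
noncomputable def pull (χ : C0 α μ →⋆ₐ[ℂ] ℂ) (x : ℕ → A) : ℂ :=
  if hx : IsCentralFixed α μ x then χ (cls x hx) else 0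

theorem pull_eq (χ : C0 α μ →⋆ₐ[ℂ] ℂ) {x : ℕ → A} (hx : IsCentralFixed α μ x) :
    pull χ x = χ (cls x hx) := dif_pos hx

theorem isCharacter_pull [TopologicalSpace.SeparableSpace A] (hμ : μ ≤ atTop)
    (χ : C0 α μ →⋆ₐ[ℂ] ℂ) (h : ∀ y ∈ NN α μ, χ y = 0) : IsCharacter α μ (pull χ) := by
  refine ⟨fun x y hx hy => ?_, fun c x hx => ?_, fun x y hx hy => ?_, fun x hx => ?_,
    fun x hx hz => ?_, ?_⟩
  · rw [pull_eq χ hx, pull_eq χ hy, pull_eq χ (hx.add hy), cls_add, sah_add]
  · rw [pull_eq χ hx, pull_eq χ (hx.smul c), cls_smul, sah_smul]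
  · rw [pull_eq χ hx, pull_eq χ hy, pull_eq χ (hx.mul hy), cls_mul, sah_mul]
  · rw [pull_eq χ hx, pull_eq χ hx.star, cls_star, sah_star]
  · rw [pull_eq χ hx]
    exact h _ (cls_mem_NN hx hz)
  · obtain ⟨e, he1, he2, he3⟩ := exists_unit_seq A
    have hec : IsCentralFixed α μ e := by
      refine ⟨⟨1, he1⟩, fun a => ?_, fun g a => ?_⟩
      · have h1 := ((he2 a).add (he3 a)).mono_left hμ
        rw [add_zero] at h1
        refine squeeze_zero (fun n => norm_nonneg _) (fun n => ?_) h1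
        have e' : e n * a - a * e n = (e n * a - a) - (a * e n - a) := by abel
        rw [e']
        exact norm_sub_le _ _
      · have h1 := ((he2 ((α g).symm a)).add (he2 a)).mono_left hμ
        rw [add_zero] at h1
        refine squeeze_zero (fun n => norm_nonneg _) (fun n => ?_) h1
        have e' : (α g (e n) - e n) * a = α g (e n * (α g).symm a - (α g).symm a) -
            (e n * a - a) := by
          rw [map_sub, map_mul, act_symm]
          noncomm_ring
        rw [e']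
        refine (norm_sub_le _ _).trans ?_
        rw [norm_act]
    refine ⟨e, hec, ?_⟩
    rw [pull_eq χ hec]
    have h1 : cls e hec - 1 ∈ NN α μ := by
      refine (mem_NN α μ _).2 fun b => ?_
      refine kap_mul_mk_eq_zero μ (up e hec.bdd - 1) b ?_
      refine ((he3 b).mono_left hμ).congr fun n => ?_
      show _ = ‖(b : 𝓜(ℂ, A)) * (((e n : A) : 𝓜(ℂ, A)) - 1)‖
      rw [mul_sub, mul_one, ← coe_mul', ← coe_sub', norm_coe_mult]
    rw [sah_of_sub χ _ (h _ h1)]
    exact one_ne_zero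

/-- Absence of characters gives the local condition. -/
theorem local_of_noChar [TopologicalSpace.SeparableSpace A] [NeBot μ] (hμ : μ ≤ atTop)
    (h : HasNoCharacters α μ) : NoCharLocalN α := by
  have h1 : ∀ χ : C0 α μ →⋆ₐ[ℂ] ℂ, ∃ y ∈ NN α μ, χ y ≠ 0 := by
    intro χ
    by_contra hcon
    push Not at hcon
    exact h ⟨pull χ, isCharacter_pull hμ χ hcon⟩
  obtain ⟨m, x, y, hy, hsum⟩ := Vale.Agent.P095R.exists_witness (NN α μ) h1
  exact noCharLocalN_of_mult α (exists_approx α μ x y ((mem_NN α μ y).1 hy) hsum)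

/-- Absence of characters of `F_μ(A)^α` is equivalent to the local condition, for every free
filter `μ`. -/
theorem hasNoCharacters_iff [TopologicalSpace.SeparableSpace A] [Countable G] [NeBot μ]
    (hμ : μ ≤ atTop) : HasNoCharacters α μ ↔ NoCharLocalN α :=
  ⟨local_of_noChar hμ, noChar_of_local hμ⟩

end Vale.Agent.P095.KR
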