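import Vale.Agent.P095.H985.Tens

/-! Transport of the local condition through cocycle conjugacy. (helper985) -/

open Filter Topology
open scoped TensorProduct MultiplierAlgebra

namespace Vale.Agent.P095.KR

open Vale.Agent.P101 Vale.Agent.P095 Vale.Agent.P095R Vale.Agent.P095K

universe u v w

variable {A B : Type u} [NonUnitalCStarAlgebra A] [NonUnitalCStarAlgebra B] {G : Type w} [Group G]

theorem star_sum_comm {m : ℕ} (x : Fin 4 → Fin m → A) :
    (∑ i, star (x 3 i) * (star (x 2 i) * star (x 1 i) - star (x 1 i) * star (x 2 i)) *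
      star (x 0 i)) = star (∑ i, x 0 i * (x 1 i * x 2 i - x 2 i * x 1 i) * x 3 i) := by
  rw [star_sum]
  refine Finset.sum_congr rfl fun i _ => ?_
  simp only [star_mul, star_sub, mul_assoc]

theorem locB_of_N {α : G →* (A ≃⋆ₐ[ℂ] A)} (h : NoCharLocalN α) : LocB α := by
  classical
  obtain ⟨m, R, h⟩ := h
  refine ⟨m, R, fun F S ε hε => ?_⟩
  obtain ⟨x, h1, h2, h3, h4⟩ := h (F.image star) S ε hε
  refine ⟨fun q i => star (x (Fin.rev q) i), fun q i => ?_, fun q i y hy => ?_,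
    fun q i g hg y hy => ?_, fun y hy => ?_⟩
  · rw [norm_star]
    exact h1 _ _
  · have := h2 (Fin.rev q) i (star y) (Finset.mem_image_of_mem _ hy)
    rw [← norm_star, star_sub, star_mul, star_mul, star_star, norm_sub_rev] at this
    exact this
  · have := h3 (Fin.rev q) i g hg (star y) (Finset.mem_image_of_mem _ hy)
    rw [← norm_star, star_mul, star_sub, star_star, ← map_star] at this
    exact this
  · have := h4 (star y) (Finset.mem_image_of_mem _ hy)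
    rw [← norm_star, star_sub, star_mul, star_star, ← star_sum_comm] at this
    exact this

theorem N_of_locB {α : G →* (A ≃⋆ₐ[ℂ] A)} (h : LocB α) : NoCharLocalN α := by
  classical
  obtain ⟨m, R, h⟩ := h
  refine ⟨m, R, fun F S ε hε => ?_⟩
  obtain ⟨x, h1, h2, h3, h4⟩ := h (F.image star) S ε hε
  refine ⟨fun q i => star (x (Fin.rev q) i), fun q i => ?_, fun q i y hy => ?_,
    fun q i g hg y hy => ?_, fun y hy => ?_⟩
  · rw [norm_star]
    exact h1 _ _
  · have := h2 (Fin.rev q) i (star y) (Finset.mem_image_of_mem _ hy)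
    rw [← norm_star, star_sub, star_mul, star_mul, star_star, norm_sub_rev] at this
    exact this
  · have := h3 (Fin.rev q) i g hg (star y) (Finset.mem_image_of_mem _ hy)
    rw [← norm_star, star_mul, star_sub, star_star, ← map_star] at this
    exact this
  · have := h4 (star y) (Finset.mem_image_of_mem _ hy)
    rw [← norm_star, star_sub, star_mul, star_star, ← star_sum_comm] at this
    exact this

/-- The local condition passes from `β` to every action cocycle conjugate to `β`. -/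
theorem locB_of_conj {α : G →* (A ≃⋆ₐ[ℂ] A)} {β : G →* (B ≃⋆ₐ[ℂ] B)} (h : IsCocycleConj α β)
    (hβ : LocB β) : LocB α := by
  classical
  obtain ⟨Φ, u, hu, -, hΦ⟩ := h.conj
  obtain ⟨m, R, hβ⟩ := hβ
  refine ⟨m, R, fun F S ε hε => ?_⟩
  have hnΦ : ∀ b, ‖Φ.symm b‖ = ‖b‖ := fun b => StarAlgEquiv.norm_map Φ.symm b
  have hnΦ' : ∀ a, ‖Φ a‖ = ‖a‖ := fun a => StarAlgEquiv.norm_map Φ a
  set c : G → A → B := fun g a => (star (u g)).fst (Φ a) with hc
  obtain ⟨x, h1, h2, h3, h4⟩ := hβ (F.image Φ ∪ (S ×ˢ F).image fun p => c p.1 p.2) S (ε / 3)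
    (by positivity)
  have hmem : ∀ a ∈ F, Φ a ∈ F.image Φ ∪ (S ×ˢ F).image fun p => c p.1 p.2 := fun a ha =>
    Finset.mem_union_left _ (Finset.mem_image_of_mem _ ha)
  have hmem' : ∀ g ∈ S, ∀ a ∈ F, c g a ∈ F.image Φ ∪ (S ×ˢ F).image fun p => c p.1 p.2 :=
    fun g hg a ha => Finset.mem_union_right _
      (Finset.mem_image.2 ⟨(g, a), Finset.mem_product.2 ⟨hg, ha⟩, rfl⟩)
  have hε3 : ε / 3 ≤ ε := by linarith
  refine ⟨fun q i => Φ.symm (x q i), fun q i => ?_, fun q i y hy => ?_,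
    fun q i g hg y hy => ?_, fun y hy => ?_⟩
  · rw [hnΦ]
    exact h1 q i
  · refine le_trans (le_of_eq ?_) ((h2 q i (Φ y) (hmem y hy)).trans hε3)
    rw [← hnΦ (x q i * Φ y - Φ y * x q i), map_sub, map_mul, map_mul, StarAlgEquiv.symm_apply_apply]
  · set X := x q i with hX
    set Y := Φ.symm X with hY
    have hYX : Φ Y = X := StarAlgEquiv.apply_symm_apply _ _
    have hcc : ((c g y : B) : 𝓜(ℂ, B)) = star (u g) * ((Φ y : B) : 𝓜(ℂ, B)) :=
      (mult_mul_coe _ _).symm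
    have huc : u g * ((c g y : B) : 𝓜(ℂ, B)) = ((Φ y : B) : 𝓜(ℂ, B)) := by
      rw [hcc, ← mul_assoc, Unitary.mul_star_self_of_mem (hu g), one_mul]
    have hun : ∀ z : 𝓜(ℂ, B), ‖u g * z‖ = ‖z‖ := fun z => CStarRing.norm_mem_unitary_mul _ (hu g)
    have n1 : ‖(β g X - X) * c g y‖ ≤ ε / 3 := h3 q i g hg _ (hmem' g hg y hy)
    have n2 : ‖X * c g y - c g y * X‖ ≤ ε / 3 := h2 q i _ (hmem' g hg y hy)
    have n3 : ‖X * Φ y - Φ y * X‖ ≤ ε / 3 := h2 q i _ (hmem y hy)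
    have e1 : ‖(α g Y - Y) * y‖ = ‖Φ (α g Y) * Φ y - X * Φ y‖ := by
      rw [← hnΦ' ((α g Y - Y) * y), map_mul, map_sub, hYX, sub_mul]
    have e2 : ((Φ (α g Y) * Φ y - X * Φ y : B) : 𝓜(ℂ, B)) =
        u g * (((β g X - X) * c g y : B) : 𝓜(ℂ, B)) +
        u g * ((X * c g y - c g y * X : B) : 𝓜(ℂ, B)) -
        ((X * Φ y - Φ y * X : B) : 𝓜(ℂ, B)) := by
      have hΦg := hΦ g Y
      rw [hYX] at hΦg
      rw [coe_sub', coe_mul', coe_mul', hΦg, mul_assoc, mul_assoc, ← hcc, coe_mul', coe_sub',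
        coe_sub', coe_mul', coe_mul', coe_sub', coe_mul', coe_mul', ← mul_assoc (u g) _ _]
      have e3 : u g * ((((c g y : B) : 𝓜(ℂ, B))) * ((X : B) : 𝓜(ℂ, B))) =
          ((Φ y : B) : 𝓜(ℂ, B)) * ((X : B) : 𝓜(ℂ, B)) := by rw [← mul_assoc, huc]
      rw [mul_sub, e3]
      noncomm_ring
    show ‖(α g Y - Y) * y‖ ≤ ε
    rw [e1, ← norm_coe_mult, e2]
    refine (norm_sub_le _ _).trans ?_
    have m1 := norm_add_le (u g * (((β g X - X) * c g y : B) : 𝓜(ℂ, B)))
      (u g * ((X * c g y - c g y * X : B) : 𝓜(ℂ, B)))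
    rw [hun, hun, norm_coe_mult, norm_coe_mult] at m1
    rw [norm_coe_mult]
    linarith
  · refine le_trans (le_of_eq ?_) ((h4 (Φ y) (hmem y hy)).trans hε3)
    rw [← hnΦ (_ * Φ y - Φ y), map_sub, map_mul, StarAlgEquiv.symm_apply_apply, map_sum]
    simp only [map_mul, map_sub]

theorem noCharLocB_of_locB (h : LocB (1 : PUnit.{1} →* (A ≃⋆ₐ[ℂ] A))) : NoCharLocB A := by
  obtain ⟨m, R, h⟩ := h
  refine ⟨m, R, fun F ε hε => ?_⟩
  obtain ⟨x, h1, h2, -, h4⟩ := h F ∅ ε hε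
  exact ⟨x 1, x 2, x 0, x 3, fun i => ⟨h1 _ _, h1 _ _, h1 _ _, h1 _ _⟩,
    fun i y hy => ⟨h2 _ _ y hy, h2 _ _ y hy, h2 _ _ y hy, h2 _ _ y hy⟩, h4⟩

end Vale.Agent.P095.KR
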