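import Vale.Agent.P095.H985.Seq

/-! Local form of the absence of characters. (helper985) -/

open Filter Topology
open scoped MultiplierAlgebra

namespace Vale.Agent.P095.KR

open Vale.Agent.P101 Vale.Agent.P101.SeqQuot Vale.Agent.P133
open Vale.Agent.P095R (NoCharLocalN tendsto_dense tendsto_of_le_inv noCharLocalN_of_mult)

universe u w

variable {A : Type u} [NonUnitalCStarAlgebra A] {G : Type w} [Group G]
  {α : G →* (A ≃⋆ₐ[ℂ] A)} {μ : Filter ℕ}

theorem IsCentralFixed.of_left {x : ℕ → A} (hb : ∃ C : ℝ, ∀ n, ‖x n‖ ≤ C)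
    (hc : ∀ a, Tendsto (fun n => ‖x n * a - a * x n‖) μ (𝓝 0))
    (hf : ∀ g a, Tendsto (fun n => ‖a * (α g (x n) - x n)‖) μ (𝓝 0)) :
    IsCentralFixed α μ x := by
  refine ⟨hb, hc, fun g a => ?_⟩
  have h1 : Tendsto (fun n => ‖α g (x n) * a - a * α g (x n)‖) μ (𝓝 0) := by
    refine (hc ((α g).symm a)).congr fun n => ?_
    rw [← norm_act α g, map_sub, map_mul, map_mul, act_symm]
  have h := ((hf g a).add h1).add (hc a)
  rw [add_zero, add_zero] at h
  refine squeeze_zero (fun n => norm_nonneg _) (fun n => ?_) h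
  have e : (α g (x n) - x n) * a = a * (α g (x n) - x n) + (α g (x n) * a - a * α g (x n)) -
      (x n * a - a * x n) := by noncomm_ring
  rw [e]
  exact (norm_sub_le _ _).trans (add_le_add (norm_add_le _ _) le_rfl)

/-- The local condition excludes characters. -/
theorem noChar_of_local [TopologicalSpace.SeparableSpace A] [Countable G] (hμ : μ ≤ atTop)
    (h : NoCharLocalN α) : HasNoCharacters α μ := by
  classical
  have hne : Nonempty A := ⟨0⟩
  obtain ⟨d, hd⟩ := TopologicalSpace.exists_dense_seq A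
  obtain ⟨g, hg⟩ := exists_surjective_nat G
  obtain ⟨m, R, h⟩ := h
  have hmem : ∀ n j : ℕ, j ≤ n → d j ∈ (Finset.range (n + 1)).image d := fun n j hj =>
    Finset.mem_image.2 ⟨j, Finset.mem_range.2 (by omega), rfl⟩
  have hmem' : ∀ n j : ℕ, j ≤ n → g j ∈ (Finset.range (n + 1)).image g := fun n j hj =>
    Finset.mem_image.2 ⟨j, Finset.mem_range.2 (by omega), rfl⟩
  choose X hb hc hf hs using fun n : ℕ =>
    h ((Finset.range (n + 1)).image d) ((Finset.range (n + 1)).image g) (1 / ((n : ℝ) + 1))
      (by positivity)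
  by_cases hm : m = 0
  · -- the sum is empty: `a = 0` for all `a`
    subst hm
    rintro ⟨χ, hχ⟩
    obtain ⟨x, hx, hx0⟩ := hχ.ne_zero
    have hz : ∀ a : A, a = 0 := by
      intro a
      have h1 : Tendsto (fun _ : ℕ => ‖a‖) atTop (𝓝 0) := by
        refine tendsto_dense hd (fun _ b => ‖b‖) (K := 1) zero_le_one (fun n b b' => ?_)
          (fun n b => norm_nonneg _) (fun j => ?_) a
        · have := norm_add_le b' (b - b')
          rw [add_sub_cancel] at this
          linarith
        · refine tendsto_of_le_inv (j := j) (fun n => norm_nonneg _) fun n hn => ?_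
          have := hs n _ (hmem n j hn)
          simpa using this
      exact norm_eq_zero.1 (tendsto_nhds_unique tendsto_const_nhds h1)
    exact hx0 (hχ.ann x hx fun a => by simpa [hz] using tendsto_const_nhds)
  have hR : 0 ≤ R := (norm_nonneg _).trans (hb 0 0 ⟨0, Nat.pos_of_ne_zero hm⟩)
  set x : Fin 4 → Fin m → ℕ → A := fun q i n => X n q i with hx
  have hcomm : ∀ q i a, Tendsto (fun n => ‖x q i n * a - a * x q i n‖) atTop (𝓝 0) := by
    intro q i
    refine tendsto_dense hd (fun n b => ‖x q i n * b - b * x q i n‖) (K := 2 * R) (by positivity)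
      (fun n b b' => ?_) (fun n b => norm_nonneg _) (fun j => ?_)
    · have e : x q i n * b - b * x q i n = (x q i n * b' - b' * x q i n) +
          (x q i n * (b - b') - (b - b') * x q i n) := by noncomm_ring
      change ‖x q i n * b - b * x q i n‖ ≤ ‖x q i n * b' - b' * x q i n‖ + 2 * R * ‖b - b'‖
      rw [e]
      refine (norm_add_le _ _).trans (add_le_add le_rfl ((norm_sub_le _ _).trans ?_))
      have n1 := (norm_mul_le (x q i n) (b - b')).trans
        (mul_le_mul_of_nonneg_right (hb n q i) (norm_nonneg _))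
      have n2 := (norm_mul_le (b - b') (x q i n)).trans
        (mul_le_mul_of_nonneg_left (hb n q i) (norm_nonneg _))
      linarith
    · exact tendsto_of_le_inv (j := j) (fun n => norm_nonneg _) fun n hn =>
        hc n q i _ (hmem n j hn)
  have hfix : ∀ q i k a, Tendsto (fun n => ‖a * (α (g k) (x q i n) - x q i n)‖) atTop (𝓝 0) := by
    intro q i k
    refine tendsto_dense hd (fun n b => ‖b * (α (g k) (x q i n) - x q i n)‖) (K := 2 * R)
      (by positivity) (fun n b b' => ?_) (fun n b => norm_nonneg _) (fun j => ?_)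
    · have e : b * (α (g k) (x q i n) - x q i n) = b' * (α (g k) (x q i n) - x q i n) +
          (b - b') * (α (g k) (x q i n) - x q i n) := by noncomm_ring
      change ‖b * (α (g k) (x q i n) - x q i n)‖ ≤
        ‖b' * (α (g k) (x q i n) - x q i n)‖ + 2 * R * ‖b - b'‖
      rw [e]
      refine (norm_add_le _ _).trans (add_le_add le_rfl ((norm_mul_le _ _).trans ?_))
      have n1 := norm_sub_le (α (g k) (x q i n)) (x q i n)
      rw [norm_act] at n1
      have n2 := hb n q i
      have n3 : ‖α (g k) (x q i n) - x q i n‖ ≤ 2 * R := by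
        have : ‖x q i n‖ ≤ R := n2
        linarith
      rw [mul_comm]
      exact mul_le_mul_of_nonneg_right n3 (norm_nonneg _)
    · exact tendsto_of_le_inv (j := max j k) (fun n => norm_nonneg _) fun n hn =>
        hf n q i _ (hmem' n k ((le_max_right _ _).trans hn)) _
          (hmem n j ((le_max_left _ _).trans hn))
  have hxc : ∀ q i, IsCentralFixed α atTop (x q i) := fun q i =>
    IsCentralFixed.of_left ⟨R, fun n => hb n q i⟩ (hcomm q i) fun g' a => by
      obtain ⟨k, rfl⟩ := hg g'
      exact hfix q i k a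
  set E : ℕ → A := ∑ i, x 0 i * (x 1 i * x 2 i - x 2 i * x 1 i) * x 3 i with hE
  have hEc : IsCentralFixed α atTop E := IsCentralFixed.sum _ _ fun i _ =>
    ((hxc 0 i).mul (((hxc 1 i).mul (hxc 2 i)).sub ((hxc 2 i).mul (hxc 1 i)))).mul (hxc 3 i)
  obtain ⟨K, hK⟩ := hEc.bdd
  have hK0 : 0 ≤ K := (norm_nonneg _).trans (hK 0)
  have hEn : ∀ n, E n = ∑ i, X n 0 i * (X n 1 i * X n 2 i - X n 2 i * X n 1 i) * X n 3 i := by
    intro n
    rw [hE, Finset.sum_apply]
    rfl
  have hunit : ∀ a, Tendsto (fun n => ‖a * E n - a‖) atTop (𝓝 0) := by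
    refine tendsto_dense hd (fun n b => ‖b * E n - b‖) (K := K + 1) (by positivity)
      (fun n b b' => ?_) (fun n b => norm_nonneg _) (fun j => ?_)
    · have e : b * E n - b = (b' * E n - b') + ((b - b') * E n - (b - b')) := by noncomm_ring
      change ‖b * E n - b‖ ≤ ‖b' * E n - b'‖ + (K + 1) * ‖b - b'‖
      rw [e]
      refine (norm_add_le _ _).trans (add_le_add le_rfl ((norm_sub_le _ _).trans ?_))
      have n1 := (norm_mul_le (b - b') (E n)).trans
        (mul_le_mul_of_nonneg_left (hK n) (norm_nonneg _))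
      linarith
    · refine tendsto_of_le_inv (j := j) (fun n => norm_nonneg _) fun n hn => ?_
      rw [hEn n]
      exact hs n _ (hmem n j hn)
  have hxμ : ∀ q i, IsCentralFixed α μ (x q i) := fun q i =>
    ⟨(hxc q i).bdd, fun a => ((hxc q i).comm a).mono_left hμ,
      fun g' a => ((hxc q i).fixed g' a).mono_left hμ⟩
  refine no_character_of_sum x hxμ fun a => ?_
  have h1 := ((hEc.comm a).add (hunit a)).mono_left hμ
  rw [add_zero] at h1
  refine squeeze_zero (fun n => norm_nonneg _) (fun n => ?_) h1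
  have e : E n * a - a = (E n * a - a * E n) + (a * E n - a) := by noncomm_ring
  show ‖E n * a - a‖ ≤ _
  rw [e]
  exact norm_add_le _ _

/-- An approximate unit which is a sequence. -/
theorem exists_unit_seq (A : Type u) [NonUnitalCStarAlgebra A] [TopologicalSpace.SeparableSpace A] :
    ∃ e : ℕ → A, (∀ n, ‖e n‖ ≤ 1) ∧ (∀ a, Tendsto (fun n => ‖e n * a - a‖) atTop (𝓝 0)) ∧
      ∀ a, Tendsto (fun n => ‖a * e n - a‖) atTop (𝓝 0) := by
  classical
  let _ : PartialOrder A := CStarAlgebra.spectralOrder A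
  have _ : StarOrderedRing A := CStarAlgebra.spectralOrderedRing A
  have hne : Nonempty A := ⟨0⟩
  obtain ⟨d, hd⟩ := TopologicalSpace.exists_dense_seq A
  have hUi : (CStarAlgebra.approximateUnit A).IsIncreasingApproximateUnit :=
    CStarAlgebra.increasingApproximateUnit A
  have _ : NeBot (CStarAlgebra.approximateUnit A) := hUi.neBot
  have key : ∀ n : ℕ, ∃ e : A, ‖e‖ ≤ 1 ∧ ∀ j ∈ Finset.range (n + 1),
      ‖e * d j - d j‖ < 1 / ((n : ℝ) + 1) ∧ ‖d j * e - d j‖ < 1 / ((n : ℝ) + 1) := by
    intro n
    have hpos : (0 : ℝ) < 1 / ((n : ℝ) + 1) := by positivity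
    have h1 : ∀ᶠ e in CStarAlgebra.approximateUnit A, ∀ j ∈ Finset.range (n + 1),
        ‖e * d j - d j‖ < 1 / ((n : ℝ) + 1) ∧ ‖d j * e - d j‖ < 1 / ((n : ℝ) + 1) := by
      rw [eventually_all_finset]
      intro j _
      have h2 : Tendsto (fun e : A => ‖e * d j - d j‖) (CStarAlgebra.approximateUnit A) (𝓝 0) := by
        have := ((hUi.tendsto_mul_right (d j)).sub_const (d j)).norm
        rwa [sub_self, norm_zero] at this
      have h3 : Tendsto (fun e : A => ‖d j * e - d j‖) (CStarAlgebra.approximateUnit A) (𝓝 0) := by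
        have := ((hUi.tendsto_mul_left (d j)).sub_const (d j)).norm
        rwa [sub_self, norm_zero] at this
      exact (h2.eventually (gt_mem_nhds hpos)).and (h3.eventually (gt_mem_nhds hpos))
    obtain ⟨e, he1, he2⟩ := (hUi.eventually_norm.and h1).exists
    exact ⟨e, he1, he2⟩
  choose e he1 he2 using key
  refine ⟨e, he1, ?_, ?_⟩
  · refine tendsto_dense hd (fun n b => ‖e n * b - b‖) (K := 2) (by norm_num)
      (fun n b b' => ?_) (fun n b => norm_nonneg _) (fun j => ?_)
    · have e' : e n * b - b = (e n * b' - b') + (e n * (b - b') - (b - b')) := by noncomm_ring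
      change ‖e n * b - b‖ ≤ ‖e n * b' - b'‖ + 2 * ‖b - b'‖
      rw [e']
      refine (norm_add_le _ _).trans (add_le_add le_rfl ((norm_sub_le _ _).trans ?_))
      have n1 := (norm_mul_le (e n) (b - b')).trans
        (mul_le_mul_of_nonneg_right (he1 n) (norm_nonneg _))
      linarith
    · exact tendsto_of_le_inv (j := j) (fun n => norm_nonneg _) fun n hn =>
        (he2 n j (Finset.mem_range.2 (by omega))).1.le
  · refine tendsto_dense hd (fun n b => ‖b * e n - b‖) (K := 2) (by norm_num)
      (fun n b b' => ?_) (fun n b => norm_nonneg _) (fun j => ?_)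
    · have e' : b * e n - b = (b' * e n - b') + ((b - b') * e n - (b - b')) := by noncomm_ring
      change ‖b * e n - b‖ ≤ ‖b' * e n - b'‖ + 2 * ‖b - b'‖
      rw [e']
      refine (norm_add_le _ _).trans (add_le_add le_rfl ((norm_sub_le _ _).trans ?_))
      have n1 := (norm_mul_le (b - b') (e n)).trans
        (mul_le_mul_of_nonneg_left (he1 n) (norm_nonneg _))
      linarith
    · exact tendsto_of_le_inv (j := j) (fun n => norm_nonneg _) fun n hn =>
        (he2 n j (Finset.mem_range.2 (by omega))).2.le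

end Vale.Agent.P095.KR
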