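import Vale.Agent.P095.H985.Conj
import Vale.Agent.P095.H586.Local
import Vale.Agent.P095.H413.Strong

/-! The equivariant Kirchberg-Rordam theorem: an action of a countable group on a separable
C*-algebra is equivariantly `𝒵`-stable if and only if the fixed point algebra of Kirchberg's
central sequence algebra has no characters. (helper985) -/

open Filter Topology
open scoped TensorProduct MultiplierAlgebra

namespace Vale.Agent.P095.KR

open Vale.Agent.P101 Vale.Agent.P095 Vale.Agent.P095R Vale.Agent.P095K Vale.Agent.P095M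
  Vale.Agent.P095.H586

universe u w

section

variable {A Z B : Type u} [NonUnitalCStarAlgebra A] [CStarAlgebra Z] [NonUnitalCStarAlgebra B]
  {G : Type w} [Group G]

/-- Cocycle conjugacy with `α ⊗ id` gives the local condition. -/
theorem local_of_conj (hZ : IsJiangSuAlgebra Z) (hZ' : IsStronglySelfAbsorbing Z)
    {T : A →ₗ[ℂ] Z →ₗ[ℂ] B} (hB : IsTensorProd T) {α : G →* (A ≃⋆ₐ[ℂ] A)}
    {β : G →* (B ≃⋆ₐ[ℂ] B)} (hβ : ∀ g a z, β g (T a z) = T (α g a) z)
    (h : IsCocycleConj α β) : NoCharLocalN α :=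
  N_of_locB (locB_of_conj h (tensor_local hB.isTensorCompletionN hβ hZ hZ'))

/-- The strong form of cocycle conjugacy contains the weak one. -/
theorem conj_of_strong {i : A → B} {α : G →* (A ≃⋆ₐ[ℂ] A)}
    {β : G →* (B ≃⋆ₐ[ℂ] B)} (h : IsStrongCocycleConj i α β) : IsCocycleConj α β := by
  obtain ⟨Φ, u, -, h1, h2, h3, -⟩ := h.conj
  exact ⟨Φ, u, h1, h2, h3⟩

/-- **Equivariant Kirchberg-Rordam theorem**, for every separable `A`, every countable group and
every action. -/
theorem equivariant [TopologicalSpace.SeparableSpace A] [Countable G] (hZ : IsJiangSuAlgebra Z) (hZ' : IsStronglySelfAbsorbing Z)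
    {T : A →ₗ[ℂ] Z →ₗ[ℂ] B} (hB : IsTensorProd T) {α : G →* (A ≃⋆ₐ[ℂ] A)}
    {β : G →* (B ≃⋆ₐ[ℂ] B)} (hβ : ∀ g a z, β g (T a z) = T (α g a) z) {μ : Filter ℕ} [NeBot μ]
    (hμ : μ ≤ atTop) :
    List.TFAE [HasNoCharacters α μ, IsCocycleConj α β,
      IsStrongCocycleConj (fun a => T a 1) α β] := by
  tfae_have 1 → 3 := fun h =>
    Vale.Agent.P095.H413.strong_of_local α ((hasNoCharacters_iff hμ).1 h) T β hZ
      hB.isTensorCompletionN hβ
  tfae_have 3 → 2 := conj_of_strong
  tfae_have 2 → 1 := fun h => (hasNoCharacters_iff hμ).2 (local_of_conj hZ hZ' hB hβ h)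
  tfae_finish

end

/-- For separable simple nuclear `A`: `A` is `𝒵`-stable if and only if Kirchberg's central
sequence algebra `F_μ(A)` has no characters, if and only if for every action `α` of every countable
amenable group `F_μ(A)^α` has no characters, if and only if all these actions are (strongly)
equivariantly `𝒵`-stable. -/
theorem simple_nuclear {A Z B : Type u} [NonUnitalCStarAlgebra A] [CStarAlgebra Z]
    [NonUnitalCStarAlgebra B] [TopologicalSpace.SeparableSpace A] (hS : IsSimpleAlg A)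
    (hA : IsNuclearAlg A) (hZ : IsJiangSuAlgebra Z) (hZ' : IsStronglySelfAbsorbing Z)
    {T : A →ₗ[ℂ] Z →ₗ[ℂ] B} (hB : IsTensorProd T) {μ : Filter ℕ} [NeBot μ] (hμ : μ ≤ atTop) :
    List.TFAE [Nonempty (A ≃⋆ₐ[ℂ] B),
      HasNoCharacters (1 : PUnit.{1} →* (A ≃⋆ₐ[ℂ] A)) μ,
      ∀ (G : Type w) [Group G] [Countable G], IsAmenable G → ∀ α : G →* (A ≃⋆ₐ[ℂ] A),
        HasNoCharacters α μ,
      ∀ (G : Type w) [Group G] [Countable G], IsAmenable G → ∀ (α : G →* (A ≃⋆ₐ[ℂ] A))
        (β : G →* (B ≃⋆ₐ[ℂ] B)), (∀ g a z, β g (T a z) = T (α g a) z) →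
          IsStrongCocycleConj (fun a => T a 1) α β] := by
  tfae_have 1 → 2 := by
    rintro ⟨Φ⟩
    refine (hasNoCharacters_iff hμ).2 (local_of_conj hZ hZ' hB
      (β := (1 : PUnit.{1} →* (B ≃⋆ₐ[ℂ] B))) (fun _ _ _ => rfl) ⟨Φ, fun _ => 1, fun _ => one_mem _,
        fun _ _ _ => rfl, fun _ _ => ?_⟩)
    rw [star_one, mul_one, one_mul]
    rfl
  tfae_have 2 → 3 := by
    intro h G _ _ hG α
    refine (hasNoCharacters_iff hμ).2 ?_
    have h1 : NoCharLocB A := noCharLocB_of_locB (locB_of_N ((hasNoCharacters_iff hμ).1 h))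
    refine noCharLocalN_of_ideal hS.nonzero (simpleI_inr (isSimpleN_of_alg hS)) hA ?_ hG α
    refine noCharLocI_of_hom h1 (Unitization.inrNonUnitalStarAlgHom ℂ A) fun x hx => ?_
    obtain ⟨a, rfl⟩ := mem_inrIdeal_iff.1 hx
    exact ⟨a, rfl⟩
  tfae_have 3 → 4 := fun h G _ _ hG α β hβ =>
    Vale.Agent.P095.H413.strong_of_local α ((hasNoCharacters_iff hμ).1 (h G hG α)) T β hZ
      hB.isTensorCompletionN hβ
  tfae_have 4 → 1 := by
    intro h
    have hG : IsAmenable PUnit.{w + 1} := by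
      intro S ε hε
      refine ⟨{PUnit.unit}, Finset.singleton_nonempty _, fun s _ => ?_⟩
      have h0 : (Finset.card (Finset.filter (fun g : PUnit.{w + 1} =>
          s * g ∉ ({PUnit.unit} : Finset PUnit.{w + 1})) {PUnit.unit})) = 0 := by
        rw [Finset.card_eq_zero, Finset.filter_eq_empty_iff]
        exact fun g _ hg => hg (Finset.mem_singleton.2 rfl)
      have h1 : ((Finset.card (Finset.filter (fun g : PUnit.{w + 1} =>
          s * g ∉ ({PUnit.unit} : Finset PUnit.{w + 1})) {PUnit.unit}) : ℕ) : ℝ) ≤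
            ε * ((({PUnit.unit} : Finset PUnit.{w + 1}).card : ℕ) : ℝ) := by
        rw [h0]
        simpa using hε.le
      convert h1
    obtain ⟨Φ, -⟩ := (h PUnit.{w + 1} hG 1 1 fun _ _ _ => rfl).conj
    exact ⟨Φ⟩
  tfae_finish

end Vale.Agent.P095.KR
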