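import Vale.Agent.P095.H985.Cen

/-! The star-algebra of sequences representing elements of `F_μ(A)^α`; characters. (helper985) -/

open Filter Topology
open scoped MultiplierAlgebra

namespace Vale.Agent.P095.KR

universe u w

variable {A : Type u} [NonUnitalCStarAlgebra A] {G : Type w} [Group G]
  {α : G →* (A ≃⋆ₐ[ℂ] A)} {μ : Filter ℕ}

theorem norm_act (α : G →* (A ≃⋆ₐ[ℂ] A)) (g : G) (a : A) : ‖α g a‖ = ‖a‖ :=
  StarAlgEquiv.norm_map (α g) a

theorem act_symm (α : G →* (A ≃⋆ₐ[ℂ] A)) (g : G) (a : A) : α g ((α g).symm a) = a :=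
  StarAlgEquiv.apply_symm_apply _ _

namespace IsCentralFixed

variable {x y : ℕ → A}

theorem comm_act (hx : IsCentralFixed α μ x) (g : G) (a : A) :
    Tendsto (fun n => ‖α g (x n) * a - a * α g (x n)‖) μ (𝓝 0) := by
  refine (hx.comm ((α g).symm a)).congr fun n => ?_
  rw [← norm_act α g, map_sub, map_mul, map_mul, act_symm]

theorem fixed_left (hx : IsCentralFixed α μ x) (g : G) (a : A) :
    Tendsto (fun n => ‖a * (α g (x n) - x n)‖) μ (𝓝 0) := by
  have h := ((hx.fixed g a).add (hx.comm_act g a)).add (hx.comm a)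
  rw [add_zero, add_zero] at h
  refine squeeze_zero (fun n => norm_nonneg _) (fun n => ?_) h
  have e : a * (α g (x n) - x n) = (α g (x n) - x n) * a - (α g (x n) * a - a * α g (x n)) +
      (x n * a - a * x n) := by noncomm_ring
  rw [e]
  exact (norm_add_le _ _).trans (add_le_add (norm_sub_le _ _) le_rfl)

theorem add (hx : IsCentralFixed α μ x) (hy : IsCentralFixed α μ y) :
    IsCentralFixed α μ (x + y) := by
  obtain ⟨C, hC⟩ := hx.bdd
  obtain ⟨D, hD⟩ := hy.bdd
  refine ⟨⟨C + D, fun n => (norm_add_le _ _).trans (add_le_add (hC n) (hD n))⟩, fun a => ?_,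
    fun g a => ?_⟩
  · have h := (hx.comm a).add (hy.comm a)
    rw [add_zero] at h
    refine squeeze_zero (fun n => norm_nonneg _) (fun n => ?_) h
    have e : (x + y) n * a - a * (x + y) n = (x n * a - a * x n) + (y n * a - a * y n) := by
      rw [Pi.add_apply]; noncomm_ring
    rw [e]
    exact norm_add_le _ _
  · have h := (hx.fixed g a).add (hy.fixed g a)
    rw [add_zero] at h
    refine squeeze_zero (fun n => norm_nonneg _) (fun n => ?_) h
    have e : (α g ((x + y) n) - (x + y) n) * a =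
        (α g (x n) - x n) * a + (α g (y n) - y n) * a := by
      rw [Pi.add_apply, map_add]; noncomm_ring
    rw [e]
    exact norm_add_le _ _

theorem smul (c : ℂ) (hx : IsCentralFixed α μ x) : IsCentralFixed α μ (c • x) := by
  obtain ⟨C, hC⟩ := hx.bdd
  refine ⟨⟨‖c‖ * C, fun n => ?_⟩, fun a => ?_, fun g a => ?_⟩
  · rw [Pi.smul_apply, norm_smul]
    exact mul_le_mul_of_nonneg_left (hC n) (norm_nonneg _)
  · have h := (hx.comm a).const_mul ‖c‖
    rw [mul_zero] at h
    refine h.congr fun n => ?_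
    rw [← norm_smul, smul_sub, Pi.smul_apply, smul_mul_assoc, mul_smul_comm]
  · have h := (hx.fixed g a).const_mul ‖c‖
    rw [mul_zero] at h
    refine h.congr fun n => ?_
    rw [← norm_smul, Pi.smul_apply, map_smul, ← smul_mul_assoc, smul_sub]

theorem star (hx : IsCentralFixed α μ x) : IsCentralFixed α μ (star x) := by
  obtain ⟨C, hC⟩ := hx.bdd
  refine ⟨⟨C, fun n => ?_⟩, fun a => ?_, fun g a => ?_⟩
  · rw [Pi.star_apply, norm_star]
    exact hC n
  · refine (hx.comm (Star.star a)).congr fun n => ?_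
    rw [← norm_star, star_sub, star_mul, star_mul, star_star, Pi.star_apply, norm_sub_rev]
  · refine (hx.fixed_left g (Star.star a)).congr fun n => ?_
    rw [← norm_star, star_mul, star_sub, star_star, Pi.star_apply, ← map_star]

theorem mul (hx : IsCentralFixed α μ x) (hy : IsCentralFixed α μ y) :
    IsCentralFixed α μ (x * y) := by
  obtain ⟨C, hC⟩ := hx.bdd
  obtain ⟨D, hD⟩ := hy.bdd
  have hC0 : 0 ≤ C := (norm_nonneg _).trans (hC 0)
  have hD0 : 0 ≤ D := (norm_nonneg _).trans (hD 0)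
  refine ⟨⟨C * D, fun n => (norm_mul_le _ _).trans
    (mul_le_mul (hC n) (hD n) (norm_nonneg _) hC0)⟩, fun a => ?_, fun g a => ?_⟩
  · have h := ((hy.comm a).const_mul C).add ((hx.comm a).mul_const D)
    rw [mul_zero, zero_mul, add_zero] at h
    refine squeeze_zero (fun n => norm_nonneg _) (fun n => ?_) h
    have e : (x * y) n * a - a * (x * y) n =
        x n * (y n * a - a * y n) + (x n * a - a * x n) * y n := by
      rw [Pi.mul_apply]; noncomm_ring
    rw [e]
    refine (norm_add_le _ _).trans (add_le_add ((norm_mul_le _ _).trans ?_)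
      ((norm_mul_le _ _).trans ?_))
    · exact mul_le_mul_of_nonneg_right (hC n) (norm_nonneg _)
    · exact mul_le_mul_of_nonneg_left (hD n) (norm_nonneg _)
  · have h := (((hy.fixed g a).const_mul C).add ((hx.fixed g a).mul_const D)).add
      ((hy.comm a).const_mul (2 * C))
    rw [mul_zero, mul_zero, zero_mul, add_zero, add_zero] at h
    refine squeeze_zero (fun n => norm_nonneg _) (fun n => ?_) h
    have e : (α g ((x * y) n) - (x * y) n) * a =
        α g (x n) * ((α g (y n) - y n) * a) + ((α g (x n) - x n) * a) * y n +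
          (α g (x n) - x n) * (y n * a - a * y n) := by
      rw [Pi.mul_apply, map_mul]; noncomm_ring
    rw [e]
    have n1 : ‖α g (x n) * ((α g (y n) - y n) * a)‖ ≤ C * ‖(α g (y n) - y n) * a‖ := by
      refine (norm_mul_le _ _).trans (mul_le_mul_of_nonneg_right ?_ (norm_nonneg _))
      rw [norm_act]
      exact hC n
    have n2 : ‖((α g (x n) - x n) * a) * y n‖ ≤ ‖(α g (x n) - x n) * a‖ * D :=
      (norm_mul_le _ _).trans (mul_le_mul_of_nonneg_left (hD n) (norm_nonneg _))
    have n3 : ‖(α g (x n) - x n) * (y n * a - a * y n)‖ ≤ 2 * C * ‖y n * a - a * y n‖ := by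
      refine (norm_mul_le _ _).trans (mul_le_mul_of_nonneg_right ?_ (norm_nonneg _))
      refine (norm_sub_le _ _).trans ?_
      rw [norm_act]
      have := hC n
      linarith
    exact (norm_add_le _ _).trans (add_le_add ((norm_add_le _ _).trans (add_le_add n1 n2)) n3)

theorem zero : IsCentralFixed α μ (0 : ℕ → A) := by
  refine ⟨⟨0, fun n => by simp⟩, fun a => ?_, fun g a => ?_⟩
  · simpa using tendsto_const_nhds
  · simpa using tendsto_const_nhds

theorem neg (hx : IsCentralFixed α μ x) : IsCentralFixed α μ (-x) := by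
  have := hx.smul (-1 : ℂ)
  rwa [neg_one_smul] at this

theorem sub (hx : IsCentralFixed α μ x) (hy : IsCentralFixed α μ y) :
    IsCentralFixed α μ (x - y) := by
  rw [sub_eq_add_neg]
  exact hx.add hy.neg

theorem sum {ι : Type*} (s : Finset ι) (f : ι → ℕ → A) (h : ∀ i ∈ s, IsCentralFixed α μ (f i)) :
    IsCentralFixed α μ (∑ i ∈ s, f i) :=
  Finset.sum_induction f _ (fun _ _ => add) zero h

end IsCentralFixed

namespace IsCharacter

variable {χ : (ℕ → A) → ℂ} {x y : ℕ → A}

theorem neg (h : IsCharacter α μ χ) (hx : IsCentralFixed α μ x) : χ (-x) = -χ x := by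
  have := h.smul (-1) x hx
  rwa [neg_one_smul, neg_one_mul] at this

theorem sub (h : IsCharacter α μ χ) (hx : IsCentralFixed α μ x) (hy : IsCentralFixed α μ y) :
    χ (x - y) = χ x - χ y := by
  rw [sub_eq_add_neg, h.add x (-y) hx hy.neg, h.neg hy, sub_eq_add_neg]

theorem zero (h : IsCharacter α μ χ) : χ 0 = 0 := by
  have := h.smul 0 0 IsCentralFixed.zero
  rwa [smul_zero, zero_mul] at this

theorem sum (h : IsCharacter α μ χ) {ι : Type*} [DecidableEq ι] (s : Finset ι) (f : ι → ℕ → A)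
    (hf : ∀ i, IsCentralFixed α μ (f i)) : χ (∑ i ∈ s, f i) = ∑ i ∈ s, χ (f i) := by
  induction s using Finset.induction_on with
  | empty => rw [Finset.sum_empty, Finset.sum_empty, h.zero]
  | insert i s hi ih =>
    rw [Finset.sum_insert hi, Finset.sum_insert hi,
      h.add _ _ (hf i) (IsCentralFixed.sum s f fun j _ => hf j), ih]

end IsCharacter

/-- A sum of products containing commutators, acting as a unit, excludes characters. -/
theorem no_character_of_sum {m : ℕ} (x : Fin 4 → Fin m → ℕ → A)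
    (hx : ∀ q i, IsCentralFixed α μ (x q i))
    (hE : ∀ a, Tendsto (fun n => ‖(∑ i, x 0 i * (x 1 i * x 2 i - x 2 i * x 1 i) * x 3 i) n * a
      - a‖) μ (𝓝 0)) : HasNoCharacters α μ := by
  rintro ⟨χ, h⟩
  set f : Fin m → ℕ → A := fun i => x 0 i * (x 1 i * x 2 i - x 2 i * x 1 i) * x 3 i with hf
  have hfc : ∀ i, IsCentralFixed α μ (f i) := fun i =>
    ((hx 0 i).mul (((hx 1 i).mul (hx 2 i)).sub ((hx 2 i).mul (hx 1 i)))).mul (hx 3 i)
  have h0 : χ (∑ i, f i) = 0 := by
    rw [h.sum _ f hfc]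
    refine Finset.sum_eq_zero fun i _ => ?_
    rw [hf]
    show χ (x 0 i * (x 1 i * x 2 i - x 2 i * x 1 i) * x 3 i) = 0
    rw [h.mul _ _ ((hx 0 i).mul (((hx 1 i).mul (hx 2 i)).sub ((hx 2 i).mul (hx 1 i)))) (hx 3 i),
      h.mul _ _ (hx 0 i) (((hx 1 i).mul (hx 2 i)).sub ((hx 2 i).mul (hx 1 i))),
      h.sub ((hx 1 i).mul (hx 2 i)) ((hx 2 i).mul (hx 1 i)), h.mul _ _ (hx 1 i) (hx 2 i),
      h.mul _ _ (hx 2 i) (hx 1 i), mul_comm (χ (x 2 i)), sub_self, mul_zero, zero_mul]
  have hS : IsCentralFixed α μ (∑ i, f i) := IsCentralFixed.sum _ f fun i _ => hfc i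
  obtain ⟨y, hy, hy0⟩ := h.ne_zero
  obtain ⟨D, hD⟩ := hy.bdd
  have h1 : χ (y * (∑ i, f i) - y) = 0 := by
    refine h.ann _ ((hy.mul hS).sub hy) fun a => ?_
    have h2 := (hE a).const_mul D
    rw [mul_zero] at h2
    refine squeeze_zero (fun n => norm_nonneg _) (fun n => ?_) h2
    have e : (y * (∑ i, f i) - y) n * a = y n * ((∑ i, f i) n * a - a) := by
      rw [Pi.sub_apply, Pi.mul_apply]; noncomm_ring
    rw [e]
    exact (norm_mul_le _ _).trans (mul_le_mul_of_nonneg_right (hD n) (norm_nonneg _))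
  rw [h.sub (hy.mul hS) hy, h.mul _ _ hy hS, h0, mul_zero, zero_sub, neg_eq_zero] at h1
  exact hy0 h1

end Vale.Agent.P095.KR
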