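import Vale.Agent.P095.Bdl.B19
import Vale.Agent.P095.H985.Chr

/-! Cocycle conjugacy with `α ⊗ id` on `A ⊗ 𝒵` gives the local condition. (helper985) -/

set_option linter.all false

open Filter Topology
open scoped TensorProduct MultiplierAlgebra

namespace Vale.Agent.P095.KR

open Vale.Agent.P101 Vale.Agent.P095 Vale.Agent.P095R Vale.Agent.P095J Vale.Agent.P133
open Vale.Agent.P095K

universe u v w

/-- The local condition, for an action on `B`, with multiplication from the right. -/
def LocB {B : Type u} [NonUnitalCStarAlgebra B] {G : Type w} [Group G]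
    (β : G →* (B ≃⋆ₐ[ℂ] B)) : Prop :=
  ∃ (m : ℕ) (R : ℝ), ∀ (F : Finset B) (S : Finset G) (ε : ℝ), 0 < ε →
    ∃ x : Fin 4 → Fin m → B, (∀ q i, ‖x q i‖ ≤ R) ∧
      (∀ q i, ∀ y ∈ F, ‖x q i * y - y * x q i‖ ≤ ε) ∧
      (∀ q i, ∀ g ∈ S, ∀ y ∈ F, ‖(β g (x q i) - x q i) * y‖ ≤ ε) ∧
      ∀ y ∈ F, ‖(∑ i, x 0 i * (x 1 i * x 2 i - x 2 i * x 1 i) * x 3 i) * y - y‖ ≤ ε

theorem tendsto_mul_dense {B : Type u} [NonUnitalCStarAlgebra B] {κ : Type v} {L : Filter κ}
    {E : Type w} (g : E → B) (hg : DenseRange g) (y : κ → B) (C : ℝ)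
    (hC0 : 0 ≤ C) (hC : ∀ᶠ p in L, ‖y p‖ ≤ C)
    (h : ∀ s, Tendsto (fun p => ‖y p * g s‖) L (𝓝 0)) (x : B) :
    Tendsto (fun p => ‖y p * x‖) L (𝓝 0) := by
  rw [Metric.tendsto_nhds]
  intro ε hε
  obtain ⟨s, hs⟩ := Metric.denseRange_iff.1 hg x (ε / (2 * (C + 2))) (by positivity)
  rw [dist_eq_norm] at hs
  filter_upwards [(Metric.tendsto_nhds.mp (h s)) (ε / 2) (by positivity), hC] with p h1 hCp
  rw [dist_zero_right, norm_norm] at h1 ⊢
  have e : y p * x = y p * g s + y p * (x - g s) := by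
    rw [mul_sub]; abel
  have h2 : ‖y p * (x - g s)‖ ≤ C * (ε / (2 * (C + 2))) :=
    (norm_mul_le _ _).trans (mul_le_mul hCp hs.le (norm_nonneg _) hC0)
  have h5 : C * (ε / (2 * (C + 2))) < ε / 2 := by
    rw [← sub_pos]
    have : ε / 2 - C * (ε / (2 * (C + 2))) = 2 * (ε / (2 * (C + 2))) := by
      field_simp; ring
    rw [this]; positivity
  rw [e]
  exact (norm_add_le _ _).trans_lt (by linarith only [h1, h2, h5])

section tensor

variable {A Z B : Type u} [NonUnitalCStarAlgebra A] [CStarAlgebra Z] [NonUnitalCStarAlgebra B]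
  {T : A →ₗ[ℂ] Z →ₗ[ℂ] B} (hT : IsTensorCompletionN T)

include hT

/-- The local statement, with almost invariance under `β = α ⊗ id`. -/
theorem tensor_local {G : Type w} [Group G] {α : G →* (A ≃⋆ₐ[ℂ] A)} {β : G →* (B ≃⋆ₐ[ℂ] B)}
    (hβ : ∀ g a z, β g (T a z) = T (α g a) z)
    (hZ : IsJiangSuAlgebra Z) (hS : IsStronglySelfAbsorbing Z) :
    LocB β := by
  classical
  let _ : PartialOrder A := CStarAlgebra.spectralOrder A
  have _ : StarOrderedRing A := CStarAlgebra.spectralOrderedRing A
  have _ : TopologicalSpace.SeparableSpace Z := separable_dimDrop_closure hZ.isJiangSu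
  obtain ⟨ψ, hψ⟩ := exists_maps hS
  obtain ⟨m, l, x, r, hx, hsum⟩ := (Vale.Agent.P101.step1 (isEmpty_char_jiangSu hZ)).exists_sum
  choose a b _ha hab using hx
  set U : Filter A := CStarAlgebra.approximateUnit A with hU
  have hUi : U.IsIncreasingApproximateUnit := CStarAlgebra.increasingApproximateUnit A
  have _ : NeBot U := hUi.neBot
  set L : Filter (ℕ × A) := (atTop : Filter ℕ) ×ˢ U with hL
  have hfst : Tendsto Prod.fst L (atTop : Filter ℕ) := tendsto_fst
  have hsnd : Tendsto Prod.snd L U := tendsto_snd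
  have hn1 : ∀ᶠ p in L, ‖p.2‖ ≤ 1 := hsnd.eventually hUi.eventually_norm
  have hnψ : ∀ n z, ‖ψ n z‖ ≤ ‖z‖ := fun n z => NonUnitalStarAlgHom.norm_apply_le (ψ n) z
  let Y : Z → ℕ × A → B := fun z p => T p.2 (ψ p.1 z)
  have hY : ∀ z, ∀ᶠ p in L, ‖Y z p‖ ≤ ‖z‖ := by
    intro z
    filter_upwards [hn1] with p hp
    refine (norm_T_le hT _ _).trans ?_
    calc ‖p.2‖ * ‖ψ p.1 z‖ ≤ 1 * ‖z‖ := mul_le_mul hp (hnψ _ _) (norm_nonneg _) zero_le_one
      _ = ‖z‖ := one_mul _
  -- commutators
  have hcomm : ∀ z, ∀ y : B, Tendsto (fun p => ‖Y z p * y - y * Y z p‖) L (𝓝 0) := by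
    intro z
    refine tendsto_comm_dense (TensorProduct.lift T) hT.dense (Y z) ‖z‖ (norm_nonneg _) (hY z) ?_
    intro s
    induction s using TensorProduct.induction_on with
    | zero => simp only [map_zero, mul_zero, zero_mul, sub_self, norm_zero, tendsto_const_nhds_iff]
    | add s t hs ht =>
      have h2 := hs.add ht
      rw [add_zero] at h2
      refine squeeze_zero (fun p => norm_nonneg _) (fun p => ?_) h2
      rw [map_add]
      refine le_trans (le_of_eq ?_) (norm_add_le _ _)
      congr 1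
      rw [mul_add, add_mul]; abel
    | tmul a' z' =>
      have h1 : Tendsto (fun p : ℕ × A => ‖a'‖ * ‖ψ p.1 z * z' - z' * ψ p.1 z‖) L (𝓝 0) := by
        have := ((hψ z z').comp hfst).const_mul ‖a'‖
        rw [mul_zero] at this
        exact this
      have h2 : Tendsto (fun p : ℕ × A => ‖p.2 * a' - a' * p.2‖ * (‖z'‖ * ‖z‖)) L (𝓝 0) := by
        have h3 : Tendsto (fun e : A => e * a' - a' * e) U (𝓝 0) := by
          have := (hUi.tendsto_mul_right a').sub (hUi.tendsto_mul_left a')
          rwa [sub_self] at this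
        have h4 := ((h3.norm).comp hsnd).mul_const (‖z'‖ * ‖z‖)
        rw [norm_zero, zero_mul] at h4
        exact h4
      have h3 := h1.add h2
      rw [add_zero] at h3
      refine squeeze_zero' (Eventually.of_forall fun p => norm_nonneg _) ?_ h3
      filter_upwards [hn1] with p hp
      rw [TensorProduct.lift.tmul]
      have e : Y z p * T a' z' - T a' z' * Y z p =
          T (p.2 * a') (ψ p.1 z * z' - z' * ψ p.1 z) + T (p.2 * a' - a' * p.2) (z' * ψ p.1 z) := by
        show T p.2 (ψ p.1 z) * T a' z' - T a' z' * T p.2 (ψ p.1 z) = _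
        rw [← hT.map_mul, ← hT.map_mul, map_sub, map_sub, LinearMap.sub_apply]
        abel
      rw [e]
      refine (norm_add_le _ _).trans (add_le_add ?_ ?_)
      · refine (norm_T_le hT _ _).trans (mul_le_mul_of_nonneg_right ?_ (norm_nonneg _))
        refine (norm_mul_le _ _).trans ?_
        calc ‖p.2‖ * ‖a'‖ ≤ 1 * ‖a'‖ := mul_le_mul_of_nonneg_right hp (norm_nonneg _)
          _ = ‖a'‖ := one_mul _
      · refine (norm_T_le hT _ _).trans (mul_le_mul_of_nonneg_left ?_ (norm_nonneg _))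
        exact (norm_mul_le _ _).trans (mul_le_mul_of_nonneg_left (hnψ _ _) (norm_nonneg _))
  -- the sum
  have hprod : ∀ p : ℕ × A, ∑ i, Y (l i) p * (Y (a i) p * Y (b i) p - Y (b i) p * Y (a i) p) *
      Y (r i) p = T (p.2 * (p.2 * p.2) * p.2) 1 := by
    intro p
    have e1 : ∀ i, Y (l i) p * (Y (a i) p * Y (b i) p - Y (b i) p * Y (a i) p) * Y (r i) p =
        T (p.2 * (p.2 * p.2) * p.2) (ψ p.1 (l i * x i * r i)) := by
      intro i
      show T p.2 (ψ p.1 (l i)) * (T p.2 (ψ p.1 (a i)) * T p.2 (ψ p.1 (b i)) -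
        T p.2 (ψ p.1 (b i)) * T p.2 (ψ p.1 (a i))) * T p.2 (ψ p.1 (r i)) = _
      have hψe : ψ p.1 (l i * x i * r i) = ψ p.1 (l i) *
          (ψ p.1 (a i) * ψ p.1 (b i) - ψ p.1 (b i) * ψ p.1 (a i)) * ψ p.1 (r i) := by
        rw [hab]
        simp only [map_mul, map_sub]
      rw [hψe, ← hT.map_mul, ← hT.map_mul, ← map_sub, ← hT.map_mul, ← hT.map_mul]
    rw [Finset.sum_congr rfl fun i _ => e1 i, ← map_sum, ← map_sum, hsum, map_one]
  have hunit : ∀ y : B, Tendsto (fun p : ℕ × A => ‖T (p.2 * (p.2 * p.2) * p.2) 1 * y - y‖) L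
      (𝓝 0) := by
    refine tendsto_unit_dense (TensorProduct.lift T) hT.dense
      (fun p : ℕ × A => T (p.2 * (p.2 * p.2) * p.2) 1) 1 zero_le_one ?_ ?_
    · filter_upwards [hn1] with p hp
      refine (norm_T_one_le hT _).trans ?_
      have h2 : ‖p.2 * p.2‖ ≤ 1 := (norm_mul_le _ _).trans (mul_le_one₀ hp (norm_nonneg _) hp)
      have h3 : ‖p.2 * (p.2 * p.2)‖ ≤ 1 :=
        (norm_mul_le _ _).trans (mul_le_one₀ hp (norm_nonneg _) h2)
      exact (norm_mul_le _ _).trans (mul_le_one₀ h3 (norm_nonneg _) hp)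
    · intro s
      induction s using TensorProduct.induction_on with
      | zero => simp only [map_zero, mul_zero, sub_self, norm_zero, tendsto_const_nhds_iff]
      | add s t hs ht =>
        have h2 := hs.add ht
        rw [add_zero] at h2
        refine squeeze_zero (fun p => norm_nonneg _) (fun p => ?_) h2
        rw [map_add]
        refine le_trans (le_of_eq ?_) (norm_add_le _ _)
        congr 1
        rw [mul_add]; abel
      | tmul a' z' =>
        have h3 : Tendsto (fun e : A => ‖e * a' - a'‖) U (𝓝 0) := by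
          have := (hUi.tendsto_mul_right a').sub_const a'
          rw [sub_self] at this
          simpa only [norm_zero] using this.norm
        have h4 : Tendsto (fun p : ℕ × A => 4 * ‖p.2 * a' - a'‖ * ‖z'‖) L (𝓝 0) := by
          have := ((h3.comp hsnd).const_mul 4).mul_const ‖z'‖
          rw [mul_zero, zero_mul] at this
          exact this
        refine squeeze_zero' (Eventually.of_forall fun p => norm_nonneg _) ?_ h4
        filter_upwards [hn1] with p hp
        rw [TensorProduct.lift.tmul, ← hT.map_mul, one_mul]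
        have e0 : T (p.2 * (p.2 * p.2) * p.2 * a') z' - T a' z' =
            T (p.2 * (p.2 * p.2) * p.2 * a' - a') z' := by
          rw [map_sub, LinearMap.sub_apply]
        rw [e0]
        refine (norm_T_le hT _ _).trans (mul_le_mul_of_nonneg_right ?_ (norm_nonneg _))
        set e := p.2
        have e2 : e * (e * e) * e * a' - a' = e * (e * (e * (e * a' - a'))) +
            e * (e * (e * a' - a')) + e * (e * a' - a') + (e * a' - a') := by
          simp only [mul_sub, mul_assoc]; abel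
        rw [e2]
        have n1 : ‖e * (e * a' - a')‖ ≤ ‖e * a' - a'‖ := by
          refine (norm_mul_le _ _).trans ?_
          calc ‖e‖ * ‖e * a' - a'‖ ≤ 1 * ‖e * a' - a'‖ :=
                mul_le_mul_of_nonneg_right hp (norm_nonneg _)
            _ = _ := one_mul _
        have n2 : ‖e * (e * (e * a' - a'))‖ ≤ ‖e * a' - a'‖ := by
          refine (norm_mul_le _ _).trans ?_
          calc ‖e‖ * ‖e * (e * a' - a')‖ ≤ 1 * ‖e * (e * a' - a')‖ :=
                mul_le_mul_of_nonneg_right hp (norm_nonneg _)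
            _ ≤ _ := by rw [one_mul]; exact n1
        have n3 : ‖e * (e * (e * (e * a' - a')))‖ ≤ ‖e * a' - a'‖ := by
          refine (norm_mul_le _ _).trans ?_
          calc ‖e‖ * ‖e * (e * (e * a' - a'))‖ ≤ 1 * ‖e * (e * (e * a' - a'))‖ :=
                mul_le_mul_of_nonneg_right hp (norm_nonneg _)
            _ ≤ _ := by rw [one_mul]; exact n2
        have m1 := norm_add_le (e * (e * (e * (e * a' - a'))) + e * (e * (e * a' - a')) +
          e * (e * a' - a')) (e * a' - a')
        have m2 := norm_add_le (e * (e * (e * (e * a' - a'))) + e * (e * (e * a' - a')))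
          (e * (e * a' - a'))
        have m3 := norm_add_le (e * (e * (e * (e * a' - a')))) (e * (e * (e * a' - a')))
        linarith only [n1, n2, n3, m1, m2, m3]
  -- almost invariance
  have hfix : ∀ (g : G) (z : Z) (y : B),
      Tendsto (fun p => ‖(β g (Y z p) - Y z p) * y‖) L (𝓝 0) := by
    intro g z
    refine tendsto_mul_dense (TensorProduct.lift T) hT.dense (fun p => β g (Y z p) - Y z p)
      (2 * ‖z‖) (by positivity) ?_ ?_
    · filter_upwards [hY z] with p hp
      refine (norm_sub_le _ _).trans ?_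
      rw [norm_act β]
      linarith
    intro s
    induction s using TensorProduct.induction_on with
    | zero => simp only [map_zero, mul_zero, norm_zero, tendsto_const_nhds_iff]
    | add s t hs ht =>
      have h2 := hs.add ht
      rw [add_zero] at h2
      refine squeeze_zero (fun p => norm_nonneg _) (fun p => ?_) h2
      rw [map_add, mul_add]
      exact norm_add_le _ _
    | tmul a' z' =>
      have h3 : ∀ c : A, Tendsto (fun e : A => ‖e * c - c‖) U (𝓝 0) := by
        intro c
        have := (hUi.tendsto_mul_right c).sub_const c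
        rw [sub_self] at this
        simpa only [norm_zero] using this.norm
      have h4 : Tendsto (fun p : ℕ × A => (‖p.2 * (α g).symm a' - (α g).symm a'‖ +
          ‖p.2 * a' - a'‖) * (‖z‖ * ‖z'‖)) L (𝓝 0) := by
        have := (((h3 ((α g).symm a')).comp hsnd).add ((h3 a').comp hsnd)).mul_const (‖z‖ * ‖z'‖)
        rw [add_zero, zero_mul] at this
        exact this
      refine squeeze_zero (fun p => norm_nonneg _) (fun p => ?_) h4
      rw [TensorProduct.lift.tmul]
      have e : (β g (Y z p) - Y z p) * T a' z' = T ((α g p.2 - p.2) * a') (ψ p.1 z * z') := by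
        show (β g (T p.2 (ψ p.1 z)) - T p.2 (ψ p.1 z)) * T a' z' = _
        rw [hβ, hT.map_mul, map_sub, LinearMap.sub_apply]
      rw [e]
      refine (norm_T_le hT _ _).trans (mul_le_mul ?_ ?_ (norm_nonneg _) (by positivity))
      · have e' : (α g p.2 - p.2) * a' = α g (p.2 * (α g).symm a' - (α g).symm a') -
            (p.2 * a' - a') := by
          rw [map_sub, map_mul, act_symm]
          noncomm_ring
        rw [e']
        refine (norm_sub_le _ _).trans ?_
        rw [norm_act α]
      · exact (norm_mul_le _ _).trans (mul_le_mul_of_nonneg_right (hnψ _ _) (norm_nonneg _))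
  set zz : Fin 4 → Fin m → Z := ![l, a, b, r] with hzz
  refine ⟨m, 1 + ∑ p : Fin 4 × Fin m, ‖zz p.1 p.2‖, fun F S ε hε => ?_⟩
  have hle : ∀ q i, ‖zz q i‖ ≤ 1 + ∑ p : Fin 4 × Fin m, ‖zz p.1 p.2‖ := by
    intro q i
    have := Finset.single_le_sum (f := fun p : Fin 4 × Fin m => ‖zz p.1 p.2‖)
      (fun p _ => norm_nonneg _) (Finset.mem_univ (q, i))
    have h2 : ‖zz q i‖ ≤ ∑ p : Fin 4 × Fin m, ‖zz p.1 p.2‖ := this
    linarith only [h2]
  have hev : ∀ᶠ p in L, ∀ q i, ‖Y (zz q i) p‖ ≤ ‖zz q i‖ ∧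
      (∀ y ∈ F, ‖Y (zz q i) p * y - y * Y (zz q i) p‖ < ε) ∧
      ∀ g ∈ S, ∀ y ∈ F, ‖(β g (Y (zz q i) p) - Y (zz q i) p) * y‖ < ε := by
    refine Filter.eventually_all.2 fun q => Filter.eventually_all.2 fun i => ?_
    refine (hY _).and (((Finset.eventually_all F).2 fun y _ =>
      (hcomm _ y).eventually (gt_mem_nhds hε)).and
      ((Finset.eventually_all S).2 fun g _ => (Finset.eventually_all F).2 fun y _ =>
        (hfix g _ y).eventually (gt_mem_nhds hε)))
  have hev3 : ∀ᶠ p in L, ∀ y ∈ F, ‖T (p.2 * (p.2 * p.2) * p.2) 1 * y - y‖ < ε :=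
    (Finset.eventually_all F).2 fun y _ => (hunit y).eventually (gt_mem_nhds hε)
  obtain ⟨p, pz, pu⟩ := (hev.and hev3).exists
  refine ⟨fun q i => Y (zz q i) p, fun q i => (pz q i).1.trans (hle q i),
    fun q i y hy => ((pz q i).2.1 y hy).le, fun q i g hg y hy => ((pz q i).2.2 g hg y hy).le,
    fun y hy => ?_⟩
  have e : (∑ i, Y (zz 0 i) p * (Y (zz 1 i) p * Y (zz 2 i) p - Y (zz 2 i) p * Y (zz 1 i) p) *
      Y (zz 3 i) p) = T (p.2 * (p.2 * p.2) * p.2) 1 := hprod p
  rw [e]
  exact (pu y hy).le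

end tensor

end Vale.Agent.P095.KR
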